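import Vale.Agent.P042.Data

/-!
P042: square-difference-free subsets of `[1, N]` of size `N ^ (34 / 45)`, beyond `N ^ (3 / 4)`.
-/

open Vale.Agent.P042 in
theorem Vale.Agent.Results.P042.SquareExponent.result :
    ∃ c : ℝ, 0 < c ∧ ∀ N : ℕ, ∃ A : Finset ℕ, A ⊆ Finset.Icc 1 N ∧
      (∀ x ∈ A, ∀ y ∈ A, ∀ n : ℕ, 1 ≤ n → (x : ℤ) - y ≠ (n : ℤ) ^ 2) ∧
      c * (N : ℝ) ^ ((34 : ℝ) / 45) ≤ A.card := by
  obtain ⟨M, C, K, hM, hC, hB, h, hab⟩ := exists_block_exponent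
  obtain ⟨c, hc, hA⟩ := exists_free_rpow (a := 34) (b := 45) hM hC hB (by norm_num) (by norm_num)
    h hab
  exact ⟨c, hc, fun N => by simpa using hA N⟩
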